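import Mathlib

set_option autoImplicit false

namespace Vale.Agent.Results.P201.TwoTerm

open MonoidAlgebra

theorem pow_injective_of_torsionFree {G : Type*} [Group G] (t : G)
    (ht : ∀ n : ℕ, 0 < n → t ^ n ≠ 1) : Function.Injective (fun k : ℕ => t ^ k) := by
  have key : ∀ k d : ℕ, t ^ k = t ^ (k + d) → d = 0 := by
    intro k d h
    by_contra hd
    apply ht d (Nat.pos_of_ne_zero hd)
    rw [pow_add] at h
    exact (mul_eq_left.mp h.symm)
  intro k l h
  simp only at h
  rcases Nat.le_total k l with hkl | hkl
  · obtain ⟨d, rfl⟩ := Nat.exists_eq_add_of_le hkl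
    have := key k d h
    omega
  · obtain ⟨d, rfl⟩ := Nat.exists_eq_add_of_le hkl
    have := key l d h.symm
    omega

/-- a finitely supported function whose support is stable under left multiplication by an element of
infinite order vanishes -/
theorem no_stable_left {K G : Type*} [Field K] [Group G] (b : MonoidAlgebra K G) (t : G)
    (ht : ∀ n : ℕ, 0 < n → t ^ n ≠ 1)
    (hstab : ∀ z, b.coeff z ≠ 0 → b.coeff (t * z) ≠ 0) (z : G) : b.coeff z = 0 := by
  by_contra hz
  have hmem : ∀ k : ℕ, t ^ k * z ∈ (b.coeff.support : Set G) := by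
    intro k
    induction k with
    | zero => simpa using hz
    | succ k ih =>
      have h1 : b.coeff (t ^ k * z) ≠ 0 := by simpa using ih
      have h2 := hstab _ h1
      rw [← mul_assoc, ← pow_succ'] at h2
      simpa using h2
  have hinj : Function.Injective (fun k : ℕ => t ^ k * z) := by
    intro k l h
    exact pow_injective_of_torsionFree t ht (mul_right_cancel h)
  exact (Set.infinite_of_injective_forall_mem hinj hmem) (Finset.finite_toSet _)

theorem no_stable_right {K G : Type*} [Field K] [Group G] (b : MonoidAlgebra K G) (t : G)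
    (ht : ∀ n : ℕ, 0 < n → t ^ n ≠ 1)
    (hstab : ∀ z, b.coeff z ≠ 0 → b.coeff (z * t) ≠ 0) (z : G) : b.coeff z = 0 := by
  by_contra hz
  have hmem : ∀ k : ℕ, z * t ^ k ∈ (b.coeff.support : Set G) := by
    intro k
    induction k with
    | zero => simpa using hz
    | succ k ih =>
      have h1 : b.coeff (z * t ^ k) ≠ 0 := by simpa using ih
      have h2 := hstab _ h1
      rw [mul_assoc, ← pow_succ] at h2
      simpa using h2
  have hinj : Function.Injective (fun k : ℕ => z * t ^ k) := by
    intro k l h
    exact pow_injective_of_torsionFree t ht (mul_left_cancel h)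
  exact (Set.infinite_of_injective_forall_mem hinj hmem) (Finset.finite_toSet _)

/-- In the group algebra of a torsion-free group over a field, a nonzero element with at most two terms is
neither a left nor a right zero divisor. -/
theorem result {K G : Type*} [Field K] [Group G]
    (htf : ∀ g : G, g ≠ 1 → ∀ n : ℕ, 0 < n → g ^ n ≠ 1)
    (g h : G) (hgh : g ≠ h) (α β : K) (hα : α ≠ 0) (b : MonoidAlgebra K G) :
    ((single g α + single h β) * b = 0 → b = 0) ∧ (b * (single g α + single h β) = 0 → b = 0) := by
  constructor
  · intro hab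
    have ht1 : h⁻¹ * g ≠ 1 := by
      intro hh
      apply hgh
      have := inv_mul_eq_one.mp hh
      exact this.symm
    have hstab : ∀ z, b.coeff z ≠ 0 → b.coeff (h⁻¹ * g * z) ≠ 0 := by
      intro z hz hz'
      have h1 : ((single g α + single h β) * b).coeff (g * z) = 0 := by rw [hab]; simp
      rw [add_mul, coeff_add, Finsupp.add_apply, coeff_single_mul_apply,
        coeff_single_mul_apply] at h1
      have e1 : g⁻¹ * (g * z) = z := by group
      have e2 : h⁻¹ * (g * z) = h⁻¹ * g * z := by group
      rw [e1, e2, hz', mul_zero, add_zero] at h1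
      exact hz ((mul_eq_zero.mp h1).resolve_left hα)
    apply coeff_injective
    ext z
    simpa using no_stable_left b (h⁻¹ * g) (htf _ ht1) hstab z
  · intro hab
    have ht1 : g * h⁻¹ ≠ 1 := by
      intro hh
      apply hgh
      exact mul_inv_eq_one.mp hh
    have hstab : ∀ z, b.coeff z ≠ 0 → b.coeff (z * (g * h⁻¹)) ≠ 0 := by
      intro z hz hz'
      have h1 : (b * (single g α + single h β)).coeff (z * g) = 0 := by rw [hab]; simp
      rw [mul_add, coeff_add, Finsupp.add_apply, coeff_mul_single_apply,
        coeff_mul_single_apply] at h1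
      have e1 : z * g * g⁻¹ = z := by group
      have e2 : z * g * h⁻¹ = z * (g * h⁻¹) := by group
      rw [e1, e2, hz', zero_mul, add_zero] at h1
      exact hz ((mul_eq_zero.mp h1).resolve_right hα)
    apply coeff_injective
    ext z
    simpa using no_stable_right b (g * h⁻¹) (htf _ ht1) hstab z

end Vale.Agent.Results.P201.TwoTerm
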